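import Mathlib
import Vale.Agent.P204.General.Tangent

/-!
# P204 on a closed four-manifold: the completed metric and the squared distance `q0`
-/

open Matrix Filter
open scoped ContDiff Topology

namespace Vale.Agent.P204.General

open Vale.Agent.P204.Torus

variable {N K : ℕ}

namespace Atlas

variable (A : Atlas N K)

theorem phi_contDiff (c : Fin K) : ContDiff ℝ ∞ (A.phi c) :=
  ((Matrix.mulVecLin (A.L c)).toContinuousLinearMap.contDiff).comp (contDiff_id.sub contDiff_const)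

/-- A coefficient cut off by the partition is smooth in every chart. -/
theorem contDiffOn_term (c d : Fin K) {F : Pt → ℝ} (hF : ContDiffOn ℝ ∞ F box) :
    ContDiffOn ℝ ∞ (fun p => A.chi c (A.psi d p) * F (A.phi c (A.psi d p))) box := by
  intro p hp
  refine ContDiffAt.contDiffWithinAt ?_
  by_cases hc : A.psi d p ∈ A.psi c '' Metric.closedBall 0 (1 / 2)
  · have hq := A.phi_mem c (A.mem_box_image hc)
    exact (((A.chi_smooth c).comp (A.psi_smooth d)).contDiffAt).mul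
      ((hF.contDiffAt (isOpen_box.mem_nhds hq)).comp p
        ((A.phi_contDiff c).comp (A.psi_smooth d)).contDiffAt)
  · refine (contDiffAt_const (c := (0 : ℝ))).congr_of_eventuallyEq ?_
    filter_upwards [isOpen_box.mem_nhds hp, (A.psi_cont d).continuousAt.preimage_mem_nhds
      ((A.isClosed_half c).isOpen_compl.mem_nhds hc)] with q hq hq'
    by_contra hne
    exact hq' (A.chi_supp c _ (A.psi_mem d q hq) (left_ne_zero_of_mul hne))

theorem proj_psi_smooth (d : Fin K) (a b : Fin N) :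
    ContDiffOn ℝ ∞ (fun p => A.proj (A.psi d p) a b) box := by
  simp only [Atlas.proj, Matrix.sum_apply, Matrix.smul_apply, smul_eq_mul]
  exact ContDiffOn.sum fun c _ => A.contDiffOn_term c d (A.projCoef_smooth c a b)

theorem proj_symm (x : Amb N) : (A.proj x)ᵀ = A.proj x := by
  simp only [Atlas.proj, Matrix.transpose_sum, Matrix.transpose_smul]
  refine Finset.sum_congr rfl fun c _ => congrArg _ ?_
  rw [transpose_mul, transpose_mul, transpose_transpose, transpose_nonsing_inv, transpose_mul,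
    transpose_transpose, Matrix.mul_assoc]

theorem dot_proj (x u w : Amb N) : u ⬝ᵥ (A.proj x *ᵥ w) = (A.proj x *ᵥ u) ⬝ᵥ w := by
  rw [dotProduct_mulVec, ← mulVec_transpose, A.proj_symm]

/-- The squared distance in a pair of charts. -/
noncomputable def qPair (J : Amb N → MN N) (c d : Fin K) (z : Pt × Pt) : ℝ :=
  A.q0 J (A.psi c z.1) (A.psi d z.2)

variable {A}
variable {J : Amb N → MN N}

theorem mMat_eq (x u w : Amb N) : u ⬝ᵥ (A.mMat J x *ᵥ w)
    = (A.proj x *ᵥ u) ⬝ᵥ (A.gMat J x *ᵥ (A.proj x *ᵥ w)) + (u ⬝ᵥ w - u ⬝ᵥ (A.proj x *ᵥ w)) := by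
  simp only [Atlas.mMat, add_mulVec, sub_mulVec, one_mulVec, ← mulVec_mulVec, dotProduct_add,
    dotProduct_sub, dotProduct_mulVec _ (A.proj x)ᵀ, vecMul_transpose]

theorem mMat_symm (x u w : Amb N) : u ⬝ᵥ (A.mMat J x *ᵥ w) = w ⬝ᵥ (A.mMat J x *ᵥ u) := by
  rw [mMat_eq, mMat_eq, g_symm, dotProduct_comm u w, A.dot_proj x w u, dotProduct_comm (A.proj x *ᵥ w),
    dotProduct_comm u (A.proj x *ᵥ w)]

/-- On tangent vectors the completed metric is the metric. -/
theorem mMat_tan {x u w : Amb N} (hu : A.IsTan x u) (hw : A.IsTan x w) :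
    u ⬝ᵥ (A.mMat J x *ᵥ w) = u ⬝ᵥ (A.gMat J x *ᵥ w) := by
  rw [mMat_eq, A.proj_fix hu, A.proj_fix hw, sub_self, add_zero]

variable (hJ : IsACS A J)
include hJ

theorem gMat_psi_smooth (d : Fin K) (a b : Fin N) :
    ContDiffOn ℝ ∞ (fun p => A.gMat J (A.psi d p) a b) box := by
  simp only [Atlas.gMat, Matrix.sum_apply, Matrix.smul_apply, smul_eq_mul]
  refine ContDiffOn.sum fun c _ => A.contDiffOn_term c d
    (F := fun p => ((A.L c)ᵀ * gH (A.jc J c p) * A.L c) a b) ?_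
  have hj := fun i k => hJ.smooth c i k
  simp only [Matrix.mul_apply, Matrix.transpose_apply, gH, Matrix.smul_apply, Matrix.add_apply,
    smul_eq_mul]
  exact ContDiffOn.sum fun i _ => (ContDiffOn.sum fun k _ => contDiffOn_const.mul
    (contDiffOn_const.mul (contDiffOn_const.add (ContDiffOn.sum fun l _ => (hj l k).mul (hj l i))))
    ).mul contDiffOn_const

theorem mMat_psi_smooth (d : Fin K) (a b : Fin N) :
    ContDiffOn ℝ ∞ (fun p => A.mMat J (A.psi d p) a b) box := by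
  have hP := A.proj_psi_smooth d
  have hG := gMat_psi_smooth hJ d
  simp only [Atlas.mMat, Matrix.add_apply, Matrix.sub_apply, Matrix.mul_apply, Matrix.transpose_apply]
  exact (ContDiffOn.sum fun k _ => (ContDiffOn.sum fun l _ => (hP l a).mul (hG l k)).mul (hP k b)).add
    (contDiffOn_const.sub (hP a b))

theorem mMat_continuousOn (a b : Fin N) : ContinuousOn (fun x => A.mMat J x a b) A.X := by
  have hP := A.proj_continuousOn
  have hG := gMat_continuousOn hJ
  simp only [Atlas.mMat, Matrix.add_apply, Matrix.sub_apply, Matrix.mul_apply, Matrix.transpose_apply]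
  exact (continuousOn_finsetSum _ fun k _ =>
    (continuousOn_finsetSum _ fun l _ => (hP l a).mul (hG l k)).mul (hP k b)).add
    (continuousOn_const.sub (hP a b))

theorem qPair_smooth (c d : Fin K) : ContDiffOn ℝ ∞ (A.qPair J c d) (box ×ˢ box) := by
  have h1 : Set.MapsTo Prod.fst (box ×ˢ box : Set (Pt × Pt)) box := fun z hz => hz.1
  have h2 : Set.MapsTo Prod.snd (box ×ˢ box : Set (Pt × Pt)) box := fun z hz => hz.2
  have hd : ∀ a, ContDiffOn ℝ ∞ (fun z : Pt × Pt => A.psi d z.2 a - A.psi c z.1 a) (box ×ˢ box) :=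
    fun a => (((contDiff_pi.1 (A.psi_smooth d) a).comp contDiff_snd).sub
      ((contDiff_pi.1 (A.psi_smooth c) a).comp contDiff_fst)).contDiffOn
  have hm : ∀ a b, ContDiffOn ℝ ∞
      (fun z : Pt × Pt => A.mMat J (A.psi c z.1) a b + A.mMat J (A.psi d z.2) a b) (box ×ˢ box) :=
    fun a b => ((mMat_psi_smooth hJ c a b).comp contDiff_fst.contDiffOn h1).add
      ((mMat_psi_smooth hJ d a b).comp contDiff_snd.contDiffOn h2)
  unfold Atlas.qPair
  simp only [Atlas.q0, dotProduct, mulVec, Matrix.add_apply, Pi.sub_apply]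
  exact contDiffOn_const.mul (ContDiffOn.sum fun a _ => (hd a).mul
    (ContDiffOn.sum fun b _ => (hm a b).mul (hd b)))

omit hJ in
theorem mMat_pos {x u : Amb N} (hx : x ∈ A.X) (hu : u ≠ 0) : 0 < u ⬝ᵥ (A.mMat J x *ᵥ u) := by
  set P := A.proj x *ᵥ u with hP
  have e : u ⬝ᵥ u - u ⬝ᵥ P = (u - P) ⬝ᵥ (u - P) := by
    have h : u ⬝ᵥ P = P ⬝ᵥ P := by
      conv_lhs => rw [hP, ← A.proj_fix (A.proj_tan hx u), A.dot_proj x u]
    simp only [sub_dotProduct, dotProduct_sub, dotProduct_comm P u]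
    linarith
  rw [mMat_eq, ← hP, e]
  rcases eq_or_ne P 0 with h | h
  · simp only [h, mulVec_zero, dotProduct_zero, zero_add, sub_zero]
    exact lt_of_le_of_ne (Finset.sum_nonneg fun i _ => mul_self_nonneg _)
      fun h0 => hu (dotProduct_self_eq_zero.1 h0.symm)
  · exact add_pos_of_pos_of_nonneg (g_pos (A.proj_tan hx u) h)
      (Finset.sum_nonneg fun i _ => mul_self_nonneg _)

theorem exists_mMat_bounds : ∃ c C : ℝ, 0 < c ∧ ∀ x ∈ A.X, ∀ u : Amb N,
    c * ‖u‖ ^ 2 ≤ u ⬝ᵥ (A.mMat J x *ᵥ u) ∧ u ⬝ᵥ (A.mMat J x *ᵥ u) ≤ C * ‖u‖ ^ 2 := by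
  have hS : IsCompact (A.X ×ˢ Metric.sphere (0 : Amb N) 1) := A.compact.prod (isCompact_sphere _ _)
  have hc : ContinuousOn (fun z : Amb N × Amb N => z.2 ⬝ᵥ (A.mMat J z.1 *ᵥ z.2))
      (A.X ×ˢ Metric.sphere (0 : Amb N) 1) := by
    have := fun a b => (mMat_continuousOn hJ a b).comp
      (continuous_fst.continuousOn (s := A.X ×ˢ Metric.sphere (0 : Amb N) 1)) fun z hz => hz.1
    simp only [Function.comp_def] at this
    simp only [mulVec, dotProduct]
    fun_prop
  obtain ⟨B, hB⟩ := hS.exists_bound_of_continuousOn hc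
  have key : ∀ {m : ℝ}, (∀ z ∈ A.X ×ˢ Metric.sphere (0 : Amb N) 1,
      m ≤ z.2 ⬝ᵥ (A.mMat J z.1 *ᵥ z.2)) → ∀ x ∈ A.X, ∀ u : Amb N,
      m * ‖u‖ ^ 2 ≤ u ⬝ᵥ (A.mMat J x *ᵥ u) ∧ u ⬝ᵥ (A.mMat J x *ᵥ u) ≤ B * ‖u‖ ^ 2 := by
    intro m hm x hx u
    rcases eq_or_ne u 0 with rfl | hu
    · simp
    have hn : 0 < ‖u‖ := norm_pos_iff.2 hu
    have hz : (x, ‖u‖⁻¹ • u) ∈ A.X ×ˢ Metric.sphere (0 : Amb N) 1 :=
      ⟨hx, mem_sphere_zero_iff_norm.2 (norm_smul_inv_norm hu)⟩
    have e : u ⬝ᵥ (A.mMat J x *ᵥ u)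
        = ‖u‖ ^ 2 * ((‖u‖⁻¹ • u) ⬝ᵥ (A.mMat J x *ᵥ (‖u‖⁻¹ • u))) := by
      simp only [mulVec_smul, dotProduct_smul, smul_dotProduct, smul_eq_mul]
      field_simp
    rw [e, mul_comm m, mul_comm B]
    exact ⟨mul_le_mul_of_nonneg_left (hm _ hz) (sq_nonneg _),
      mul_le_mul_of_nonneg_left ((le_abs_self _).trans (hB _ hz)) (sq_nonneg _)⟩
  rcases (A.X ×ˢ Metric.sphere (0 : Amb N) 1).eq_empty_or_nonempty with he | he
  · exact ⟨1, B, one_pos, key fun z hz => by simp [he] at hz⟩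
  · obtain ⟨z₀, hz₀, hmin⟩ := hS.exists_isMinOn he hc
    refine ⟨_, B, mMat_pos hz₀.1 (fun h => ?_), key fun z hz => hmin hz⟩
    have := mem_sphere_zero_iff_norm.1 hz₀.2
    rw [h, norm_zero] at this
    exact zero_ne_one this

theorem exists_q0_bounds : ∃ c C : ℝ, 0 < c ∧ ∀ x ∈ A.X, ∀ y ∈ A.X,
    c * ‖x - y‖ ^ 2 ≤ A.q0 J x y ∧ A.q0 J x y ≤ C * ‖x - y‖ ^ 2 := by
  obtain ⟨c, C, hc, h⟩ := exists_mMat_bounds hJ
  refine ⟨c, C, hc, fun x hx y hy => ?_⟩
  rw [norm_sub_rev x y, Atlas.q0, add_mulVec, dotProduct_add]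
  constructor <;> linarith [(h x hx (y - x)).1, (h x hx (y - x)).2, (h y hy (y - x)).1,
    (h y hy (y - x)).2]

theorem q0_nonneg {x y : Amb N} (hx : x ∈ A.X) (hy : y ∈ A.X) : 0 ≤ A.q0 J x y := by
  obtain ⟨c, C, hc, h⟩ := exists_q0_bounds hJ
  exact le_trans (mul_nonneg hc.le (sq_nonneg _)) (h x hx y hy).1

theorem q0_pos {x y : Amb N} (hx : x ∈ A.X) (hy : y ∈ A.X) (hne : x ≠ y) : 0 < A.q0 J x y := by
  obtain ⟨c, C, hc, h⟩ := exists_q0_bounds hJ
  exact lt_of_lt_of_le (mul_pos hc (pow_pos (norm_pos_iff.2 (sub_ne_zero.2 hne)) 2)) (h x hx y hy).1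

theorem q0_continuousOn :
    ContinuousOn (fun z : Amb N × Amb N => A.q0 J z.1 z.2) (A.X ×ˢ A.X) := by
  have h1 := fun a b => (mMat_continuousOn hJ a b).comp
    (continuous_fst.continuousOn (s := A.X ×ˢ A.X)) fun z hz => hz.1
  have h2 := fun a b => (mMat_continuousOn hJ a b).comp
    (continuous_snd.continuousOn (s := A.X ×ˢ A.X)) fun z hz => hz.2
  simp only [Function.comp_def] at h1 h2
  simp only [Atlas.q0, mulVec, dotProduct, Matrix.add_apply, Pi.sub_apply]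
  have hd : ∀ a, ContinuousOn (fun z : Amb N × Amb N => z.2 a - z.1 a) (A.X ×ˢ A.X) := fun a =>
    (((continuous_apply a).comp continuous_snd).sub
      ((continuous_apply a).comp continuous_fst)).continuousOn
  exact continuousOn_const.mul (continuousOn_finsetSum _ fun a _ =>
    (hd a).mul (continuousOn_finsetSum _ fun b _ => ((h1 a b).add (h2 a b)).mul (hd b)))

end Atlas

end Vale.Agent.P204.General
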