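import Mathlib
import Vale.Agent.P204.General.Whitney.Smooth
import Vale.Agent.P204.Core.Pair
import Vale.Agent.P204.Core.Whitney.Expansion

/-!
# P204 on a closed four-manifold: the jet of a chart and the expansion of `q0` in it
-/

set_option maxSynthPendingDepth 3

open Matrix
open scoped ContDiff

namespace Vale.Agent.P204.General

open Vale.Agent.P204.Torus Vale.Agent.P204.Core

variable {N K : ℕ}

/-- The bilinear form of an ambient matrix. -/
noncomputable def bilC (M : MN N) : Amb N →L[ℝ] Amb N →L[ℝ] ℝ :=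
  ∑ a, ∑ b, M a b • (ContinuousLinearMap.proj (R := ℝ) (φ := fun _ : Fin N => ℝ) a).smulRight
    (ContinuousLinearMap.proj (R := ℝ) (φ := fun _ : Fin N => ℝ) b)

theorem bilC_apply (M : MN N) (u v : Amb N) : bilC M u v = u ⬝ᵥ (M *ᵥ v) := by
  simp only [bilC, _root_.sum_apply, _root_.smul_apply, ContinuousLinearMap.smulRight_apply,
    ContinuousLinearMap.proj_apply, smul_eq_mul, dotProduct, mulVec, Finset.mul_sum]
  exact Finset.sum_congr rfl fun a _ => Finset.sum_congr rfl fun b _ => by ring

/-- An expansion with worse constants. -/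
theorem expansion_mono {P : PairData} {w : Pt} {r c C c' C' : ℝ} (h : P.Expansion w r c C)
    (hc : c' ≤ c) (hC : C ≤ C') : P.Expansion w r c' C' := by
  have hr := h.rnonneg
  exact
    { rnonneg := hr
      rle := h.rle.trans hC
      wle := h.wle.trans (by gcongr)
      qlow := le_trans (mul_le_mul_of_nonneg_right hc (add_nonneg (sq_nonneg _) (sq_nonneg _))) h.qlow
      qhigh := h.qhigh.trans (by gcongr)
      qw := h.qw.trans (by gcongr)
      aexp := fun V => (h.aexp V).trans (by gcongr)
      hexp := fun U V => (h.hexp U V).trans (by gcongr)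
      jexp := fun v => (h.jexp v).trans (by gcongr)
      jdexp := fun z v => (h.jdexp z v).trans (by gcongr)
      jbd := fun v => (h.jbd v).trans (by gcongr)
      jdbd := fun z v => (h.jdbd z v).trans (by gcongr)
      glow := fun v => le_trans (mul_le_mul_of_nonneg_right hc (sq_nonneg _)) (h.glow v)
      gbd := fun u v => (h.gbd u v).trans (by gcongr)
      gdbd := fun z u v => (h.gdbd z u v).trans (by gcongr) }

namespace Atlas

variable {A : Atlas N K} {J : Amb N → MN N} (hJ : IsACS A J)
include hJ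

theorem bilC_mMat_smooth (c : Fin K) :
    ContDiffOn ℝ ∞ (fun p => bilC (A.mMat J (A.psi c p))) box := by
  unfold bilC
  exact ContDiffOn.sum fun a _ => ContDiffOn.sum fun b _ =>
    (mMat_psi_smooth hJ c a b).smul contDiffOn_const

/-- The chart `c` with the completed metric. -/
noncomputable def wChart (c : Fin K) : Whitney.Chart (Amb N) where
  U := box
  isOpen := isOpen_box
  E := A.psi c
  Mb p := bilC (A.mMat J (A.psi c p))
  J := A.jc J c
  L := (Matrix.mulVecLin (A.L c)).toContinuousLinearMap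
  smE := (A.psi_smooth c).contDiffOn
  smM := bilC_mMat_smooth hJ c
  smJ i k := hJ.smooth c i k
  symm p _ u v := by rw [bilC_apply, bilC_apply, mMat_symm]
  left p hp q hq := by
    show A.L c *ᵥ (A.psi c p - A.psi c q) = p - q
    conv_rhs => rw [← A.left_inv c p hp, ← A.left_inv c q hq]
    rw [← mulVec_sub, sub_sub_sub_cancel_right]
  sq := hJ.sq c
  herm p hp u v := by
    have hx : A.psi c p ∈ A.psi c '' box := ⟨p, hp, rfl⟩
    have ht := fun w => J_chart hJ hx w
    simp only [A.phi_psi c hp] at ht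
    simp only [bilC_apply, ← A.dmat_mulVec]
    rw [mMat_tan (A.isTan_dmat c hp _) (A.isTan_dmat c hp _),
      mMat_tan (A.isTan_dmat c hp _) (A.isTan_dmat c hp _), ← ht, ← ht,
      g_J hJ (A.isTan_dmat c hp u) (A.isTan_dmat c hp v)]

theorem qPair_eq (c : Fin K) : A.qPair J c c = (wChart hJ c).q := by
  funext z
  simp only [Atlas.qPair, Atlas.q0, Whitney.Chart.q, wChart, _root_.smul_apply, _root_.add_apply,
    bilC_apply, smul_eq_mul]
  rw [← neg_sub (A.psi c z.1) (A.psi c z.2), add_mulVec]
  simp only [mulVec_neg, dotProduct_add, neg_dotProduct, dotProduct_neg, neg_neg]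

/-- The jet of the structure and the metric at a point of a chart. -/
noncomputable def jetAt (c : Fin K) {q : Pt} (hq : q ∈ box) : Jet := (wChart hJ c).jet (x := q) hq

theorem jetAt_j (c : Fin K) {q : Pt} (hq : q ∈ box) : (jetAt hJ c hq).j = A.jc J c q := rfl

theorem jetAt_g (c : Fin K) {q : Pt} (hq : q ∈ box) (u v : Pt) :
    ev (jetAt hJ c hq).g u v
      = (A.dmat c q *ᵥ u) ⬝ᵥ (A.gMat J (A.psi c q) *ᵥ (A.dmat c q *ᵥ v)) := by
  rw [← mMat_tan (A.isTan_dmat c hq u) (A.isTan_dmat c hq v), ← bilC_apply, A.dmat_mulVec,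
    A.dmat_mulVec]
  exact (wChart hJ c).ev_g q u v

theorem jd_eq_derivMat (c : Fin K) {q : Pt} (hq : q ∈ box) (v : Pt) :
    (wChart hJ c).jd q v = derivMat (A.jc J c) q v := by
  ext i k
  have h := hasFDerivAt_pi'.1 (hasFDerivAt_pi'.1
    (Whitney.hasFDerivAt_of_smooth (wChart hJ c).smJF isOpen_box hq) i) k
  exact (congrArg (fun T : Pt →L[ℝ] ℝ => T v) h.fderiv).symm

theorem jetAt_jd (c : Fin K) {q : Pt} (hq : q ∈ box) (v : Pt) :
    (jetAt hJ c hq).jd v = derivMat (A.jc J c) q v := jd_eq_derivMat hJ c hq v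

theorem pairOf_eq (c : Fin K) (s : ℝ) {p q : Pt} (hp : p ∈ box) (hq : q ∈ box) :
    pairOf (jetAt hJ c hq) (A.jc J c) (A.qPair J c c) s (p, q)
      = (wChart hJ c).pair s p (y := q) hq := by
  rw [qPair_eq hJ c]
  simp only [pairOf, Whitney.Chart.pair, PairData.mk.injEq]
  and_intros
  all_goals first
    | trivial
    | rfl
    | exact LinearMap.ext fun v => (jd_eq_derivMat hJ c hp v).symm
    | exact LinearMap.ext fun U => LinearMap.ext fun V => rfl

/-- `q0` in one chart has the expansion, uniformly in the chart and on smaller cubes. -/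
theorem exists_expansion : ∃ c C : ℝ, 0 < c ∧ ∀ (d : Fin K), ∀ p ∈ Metric.closedBall (0 : Pt) (3 / 4),
    ∀ q ∈ Metric.closedBall (0 : Pt) (3 / 4), ∀ (hq : q ∈ box) (s : ℝ),
    (pairOf (jetAt hJ d hq) (A.jc J d) (A.qPair J d d) s (p, q)).Expansion (p - q)
      ‖A.psi d p - A.psi d q‖ c C := by
  have hsub : Metric.closedBall (0 : Pt) (3 / 4) ⊆ box := Metric.closedBall_subset_ball (by norm_num)
  obtain ⟨m, M, hm, hb⟩ := exists_mMat_bounds hJ
  choose c C hc hC using fun d : Fin K => Whitney.Chart.exists_expansion (wChart hJ d)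
    (isCompact_closedBall (0 : Pt) (3 / 4)) (convex_closedBall _ _) hsub hm
    fun p hp u => (hb _ (A.psi_mem d p (hsub hp)) u).1.trans_eq (bilC_apply _ u u).symm
  have hpos : ∀ d, 0 ≤ 1 / c d := fun d => (one_div_pos.2 (hc d)).le
  have h1 : 0 < 1 + ∑ d, 1 / c d :=
    add_pos_of_pos_of_nonneg one_pos (Finset.sum_nonneg fun d _ => hpos d)
  refine ⟨1 / (1 + ∑ d, 1 / c d), ∑ d, |C d|, one_div_pos.2 h1, fun d p hp q hq hq' s => ?_⟩
  rw [pairOf_eq hJ d s (hsub hp) hq']
  refine expansion_mono (hC d p hp q hq hq' s) ?_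
    ((le_abs_self _).trans (Finset.single_le_sum (f := fun d => |C d|)
      (fun d _ => abs_nonneg _) (Finset.mem_univ d)))
  rw [one_div_le h1 (hc d)]
  linarith [Finset.single_le_sum (f := fun d => 1 / c d) (fun d _ => hpos d) (Finset.mem_univ d)]

end Atlas

end Vale.Agent.P204.General
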